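import Crest.Agent.R77.Defs

/-! Statements of the pieces of result 77 (all `sorry`); each piece is proved in its own file,
with the SAME name but WITHOUT the `Skel.` prefix. Nothing may import this file. -/

set_option autoImplicit false

open MeasureTheory Laplacian InnerProductSpace Metric
open scoped ENNReal

namespace Crest.Agent.R77.Skel

/-- Green.lean: Green's identity for a test function supported away from the origin. -/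
theorem green_compact {n : ℕ} (w ψ : EuclideanSpace ℝ (Fin n) → ℝ) (hw : ContDiffOn ℝ 2 w {0}ᶜ)
    (hψ : ContDiff ℝ 2 ψ) (hc : HasCompactSupport ψ) (h0 : (0 : EuclideanSpace ℝ (Fin n)) ∉ tsupport ψ) :
    ∫ x, w x * (Δ ψ) x = ∫ x, ψ x * (Δ w) x := sorry

/-- Green.lean: Laplacian of a radial function. -/
theorem laplacian_radial {n : ℕ} (Φ : ℝ → ℝ) (x₀ x : EuclideanSpace ℝ (Fin n))
    (hΦ : ContDiffAt ℝ 2 Φ (‖x - x₀‖ ^ 2)) :
    (Δ (fun y : EuclideanSpace ℝ (Fin n) => Φ (‖y - x₀‖ ^ 2))) x =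
      4 * ‖x - x₀‖ ^ 2 * deriv (deriv Φ) (‖x - x₀‖ ^ 2) + 2 * n * deriv Φ (‖x - x₀‖ ^ 2) := sorry

/-- Dim2.lean: no nonnegative continuous strictly superharmonic function on the punctured plane. -/
theorem dim2 (w φ : EuclideanSpace ℝ (Fin 2) → ℝ) (hw : Continuous w) (hw2 : ContDiffOn ℝ 2 w {0}ᶜ)
    (hw0 : ∀ x, 0 ≤ w x) (hφ : ContinuousOn φ {0}ᶜ) (hφ0 : ∀ x, x ≠ 0 → 0 < φ x)
    (heq : ∀ x, x ≠ 0 → -(Δ w) x = φ x) : False := sorry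

/-- Repr.lean: Riesz representation of nonnegative supersolutions, `n ≥ 3`. -/
theorem riesz_repr (n : ℕ) (hn : 3 ≤ n) : ∃ c : ℝ, 0 < c ∧
    ∀ w φ : EuclideanSpace ℝ (Fin n) → ℝ, Continuous w → ContDiffOn ℝ 2 w {0}ᶜ → (∀ x, 0 ≤ w x) →
      ContinuousOn φ {0}ᶜ → (∀ x, x ≠ 0 → 0 ≤ φ x) → (∀ x, x ≠ 0 → -(Δ w) x = φ x) →
      ∃ h : ℝ, 0 ≤ h ∧ ∀ x, ENNReal.ofReal (w x) =
        ENNReal.ofReal h + ∫⁻ y, ENNReal.ofReal (c * ‖x - y‖ ^ (2 - (n : ℝ)) * φ y) := sorry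

/-- Core.lean: the cylinder theorem. -/
theorem core {S : Type} [MetricSpace S] [CompactSpace S] [MeasurableSpace S] [BorelSpace S]
    (μ : Measure S) [IsFiniteMeasure μ] (hμ : μ ≠ 0) {ν : ℝ} (hν : 0 < ν) (K : Kern S ν)
    (p q γ₁ γ₂ : ℝ) (U V : S × ℝ → ℝ) (hV : Half μ K q γ₂ U V) (hU : Half μ K p γ₁ V U)
    (hδ : 0 < γ₁ / (p + 1) + γ₂ / (q + 1)) : False := sorry

/-- Reduce.lean: the case `n ≥ 3` (from `riesz_repr` and `core`). -/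
theorem dim_ge3 (n : ℕ) (hn : 3 ≤ n) (p q A B : ℝ) (hp : 0 < p) (hq : 0 < q)
    (hsub : (n : ℝ) - 2 < ((n : ℝ) + A) / (p + 1) + ((n : ℝ) + B) / (q + 1))
    (u v : EuclideanSpace ℝ (Fin n) → ℝ) (hu : Continuous u) (hv : Continuous v)
    (hu2 : ContDiffOn ℝ 2 u {0}ᶜ) (hv2 : ContDiffOn ℝ 2 v {0}ᶜ)
    (hu0 : ∀ x, 0 < u x) (hv0 : ∀ x, 0 < v x)
    (heq : ∀ x, x ≠ 0 → -(Δ u) x = ‖x‖ ^ A * v x ^ p ∧ -(Δ v) x = ‖x‖ ^ B * u x ^ q) : False := sorry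

theorem result
    (n : ℕ) (hn : 2 ≤ n) (p q A B : ℝ) (hp : 0 < p) (hq : 0 < q)
    (hsub : (n : ℝ) - 2 < ((n : ℝ) + A) / (p + 1) + ((n : ℝ) + B) / (q + 1)) :
    ¬ ∃ u v : EuclideanSpace ℝ (Fin n) → ℝ,
        Continuous u ∧ Continuous v ∧
        ContDiffOn ℝ 2 u {0}ᶜ ∧ ContDiffOn ℝ 2 v {0}ᶜ ∧
        (∀ x, 0 < u x) ∧ (∀ x, 0 < v x) ∧
        ∀ x, x ≠ 0 →
          -(Δ u) x = ‖x‖ ^ A * v x ^ p ∧ -(Δ v) x = ‖x‖ ^ B * u x ^ q := by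
  rintro ⟨u, v, hu, hv, hu2, hv2, hu0, hv0, heq⟩
  rcases Nat.lt_or_ge n 3 with h | h
  · obtain rfl : n = 2 := by omega
    refine dim2 u (fun x => ‖x‖ ^ A * v x ^ p) hu hu2 (fun x => (hu0 x).le) ?_ ?_
      (fun x hx => (heq x hx).1)
    · refine ContinuousOn.mul (ContinuousOn.rpow_const continuous_norm.continuousOn ?_)
        (ContinuousOn.rpow_const hv.continuousOn (fun x _ => Or.inl (hv0 x).ne'))
      intro x hx
      exact Or.inl (norm_ne_zero_iff.2 hx)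
    · intro x hx
      exact mul_pos (Real.rpow_pos_of_pos (norm_pos_iff.2 hx) _) (Real.rpow_pos_of_pos (hv0 x) _)
  · exact dim_ge3 n h p q A B hp hq hsub u v hu hv hu2 hv2 hu0 hv0 heq

end Crest.Agent.R77.Skel
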